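import Vale.Agent.P197.H369.Ind

/-!
# From the occurrence statement to the cyclic submodule of a pure tensor (P197)
-/

namespace Vale.Agent.P197.H369

open Equiv Finset Vale.Agent.P197
open scoped TensorProduct

noncomputable section

/-- The submodule of `S^λ ⊗ S^μ` spanned by the translates of the pure tensor `v ⊗ w`. -/
def cyc {n : ℕ} {lam mu : YoungDiagram} (v : spechtSub n lam) (w : spechtSub n mu) :
    Submodule ℂ (spechtSub n lam ⊗[ℂ] spechtSub n mu) :=
  Submodule.span ℂ (Set.range fun g : Perm (Fin n) => specht n lam g v ⊗ₜ[ℂ] specht n mu g w)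

theorem cyc_stable {n : ℕ} {lam mu : YoungDiagram} (v : spechtSub n lam) (w : spechtSub n mu)
    (g : Perm (Fin n)) :
    cyc v w ≤ (cyc v w).comap (((specht n lam).tprod (specht n mu)) g) := by
  unfold cyc
  rw [Submodule.span_le]
  rintro _ ⟨h, rfl⟩
  refine Submodule.subset_span ⟨g * h, ?_⟩
  simp only [map_mul, Module.End.mul_apply, Representation.tprod_apply, TensorProduct.map_tmul]

set_option maxSynthPendingDepth 3 in
/-- If a bilinear form detects the Young symmetrizer of `ν` on `v ⊗ w`, then the submodule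
generated by `v ⊗ w` contains a copy of the Specht module of `ν`. -/
theorem exists_of_occ {n : ℕ} {lam mu nu : YoungDiagram} (v : spechtSub n lam)
    (w : spechtSub n mu) (b : BF (Fin n)) (rl cl : Fin n → ℕ) (hl : IsLabel nu.cells rl cl)
    (h : occ rl cl (Fn b v.1 w.1) ≠ 0) :
    ∃ f : Representation.IntertwiningMap (specht n nu) ((specht n lam).tprod (specht n mu)),
      f ≠ 0 ∧ ∀ x, f x ∈ cyc v w := by
  classical
  have hbij : Function.Bijective
      (fun x : Fin n => (⟨(rl x, cl x), hl.mem x⟩ : nu.cells)) := by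
    constructor
    · intro x y hxy
      have h1 : rl x = rl y ∧ cl x = cl y := by simpa using hxy
      exact hl.inj x y h1.1 h1.2
    · rintro ⟨⟨a, b⟩, hab⟩
      obtain ⟨x, hx1, hx2⟩ := hl.surj (a, b) hab
      refine ⟨x, ?_⟩
      simp only [Subtype.mk.injEq, Prod.mk.injEq]
      exact ⟨hx1, hx2⟩
  set t : Fin n ≃ nu.cells := Equiv.ofBijective _ hbij with ht
  have hr : (fun x => (t x).1.1) = rl := rfl
  have hc : (fun x => (t x).1.2) = cl := rfl
  let σ := (specht n lam).tprod (specht n mu)
  let σW := σ.subrepresentation (cyc v w) (cyc_stable v w)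
  let w0 : cyc v w := ⟨v ⊗ₜ[ℂ] w, Submodule.subset_span ⟨1, by
    simp only [map_one, Module.End.one_apply]⟩⟩
  have hσW : ∀ (g : Perm (Fin n)) (x : cyc v w), ((σW g x : cyc v w) : _) = σ g x.1 :=
    fun g x => rfl
  have hne : ∑ g ∈ stab rl, σW g (∑ π ∈ stab cl, ((Perm.sign π : ℤ) : ℂ) • σW π w0) ≠ 0 := by
    intro hzero
    apply h
    have h1 := congrArg (fun x : cyc v w => tensorForm lam mu b x.1) hzero
    simp only [Submodule.coe_sum, map_sum, Submodule.coe_smul, hσW, map_smul,
      ZeroMemClass.coe_zero, map_zero] at h1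
    rw [← h1]
    unfold occ
    refine Finset.sum_congr rfl (fun ρ _ => Finset.sum_congr rfl (fun π _ => ?_))
    rw [smul_eq_mul]
    congr 1
    unfold Fn
    change _ = tensorForm lam mu b (σ ρ (σ π (v ⊗ₜ[ℂ] w)))
    change _ = tensorForm lam mu b (((specht n lam).tprod (specht n mu)) ρ
      (((specht n lam).tprod (specht n mu)) π (v ⊗ₜ[ℂ] w)))
    rw [Representation.tprod_apply, Representation.tprod_apply, TensorProduct.map_tmul,
      TensorProduct.map_tmul, tensorForm_tmul]
    have e : ∀ (la : YoungDiagram) (u : spechtSub n la),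
        ((specht n la ρ (specht n la π u)).1) = wordRep (Fin n) (ρ * π) u.1 := by
      intro la u
      rw [map_mul]
      rfl
    rw [e, e]
  obtain ⟨u', hu'⟩ := exists_flip σW cl rl w0 hne
  obtain ⟨f, hf⟩ := exists_intertwining σW t u' (by
    rw [hr, hc]
    exact hu')
  refine ⟨LinearMap.intertwiningMap_of_isIntertwiningMap (specht n nu) σ
    ((cyc v w).subtype.comp f.toLinearMap) ?_, ?_, ?_⟩
  · intro g x
    have := Representation.IntertwiningMap.isIntertwining _ _ f g x
    change ((f (specht n nu g x) : cyc v w) : spechtSub n lam ⊗[ℂ] spechtSub n mu) = σ g (f x).1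
    rw [this]
    rfl
  · intro hz
    apply hf
    ext x
    have h1 := congrArg (fun F : Representation.IntertwiningMap (specht n nu) σ => F x) hz
    exact h1
  · intro x
    exact (f x).2

end

end Vale.Agent.P197.H369
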