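import Vale.Agent.P197.Bdl.B1

/-!
# Horizontal strips and partial sums of row lengths (P197)
-/

namespace Vale.Agent.P197.H369

open Finset

/-- The Young diagram with row lengths `f`. -/
def ofFun (f : ℕ → ℕ) (hf : Antitone f) (N : ℕ) : YoungDiagram where
  cells := (Finset.range N ×ˢ Finset.range (f 0)).filter fun c => c.2 < f c.1
  isLowerSet := by
    rintro ⟨a, b⟩ ⟨c, d⟩ hle h
    simp only [Finset.mem_coe, Finset.mem_filter, Finset.mem_product, Finset.mem_range,
      Prod.mk_le_mk] at *
    have := hf hle.1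
    omega

theorem mem_ofFun {f : ℕ → ℕ} {hf : Antitone f} {N : ℕ} (hN : ∀ i, N ≤ i → f i = 0)
    {c : ℕ × ℕ} : c ∈ ofFun f hf N ↔ c.2 < f c.1 := by
  rw [← YoungDiagram.mem_cells]
  simp only [ofFun, Finset.mem_filter, Finset.mem_product, Finset.mem_range]
  have h0 := hf (Nat.zero_le c.1)
  constructor
  · exact fun h => h.2
  · intro h
    refine ⟨⟨?_, by omega⟩, h⟩
    by_contra hc
    have := hN c.1 (by omega)
    omega

theorem rowLen_ofFun {f : ℕ → ℕ} {hf : Antitone f} {N : ℕ} (hN : ∀ i, N ≤ i → f i = 0)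
    (i : ℕ) : (ofFun f hf N).rowLen i = f i := by
  apply le_antisymm
  · by_contra h
    push Not at h
    have h1 : (i, f i) ∈ ofFun f hf N := YoungDiagram.mem_iff_lt_rowLen.2 h
    rw [mem_ofFun hN] at h1
    simp at h1
  · by_contra h
    push Not at h
    have h1 : (i, (ofFun f hf N).rowLen i) ∈ ofFun f hf N := by
      rw [mem_ofFun hN]
      exact h
    rw [YoungDiagram.mem_iff_lt_rowLen] at h1
    simp at h1

/-- The rows beyond the number of cells are empty. -/
theorem rowLen_eq_zero (ν : YoungDiagram) (i : ℕ) (hi : ν.card ≤ i) : ν.rowLen i = 0 := by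
  by_contra h
  have h1 : (i, 0) ∈ ν := YoungDiagram.mem_iff_lt_rowLen.2 (Nat.pos_of_ne_zero h)
  have h2 : (Finset.range (i + 1)).image (fun a => (a, 0)) ⊆ ν.cells := by
    intro c hc
    rw [Finset.mem_image] at hc
    obtain ⟨a, ha, rfl⟩ := hc
    rw [Finset.mem_range] at ha
    rw [YoungDiagram.mem_cells]
    exact ν.up_left_mem (by omega) le_rfl h1
  have h3 := Finset.card_le_card h2
  rw [Finset.card_image_of_injective _ (fun a b hab => by simpa using hab), Finset.card_range]
    at h3
  have : ν.cells.card = ν.card := rfl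
  omega

theorem card_eq_sum (ν : YoungDiagram) (N : ℕ) (hN : ν.card ≤ N) :
    ν.card = ∑ i ∈ Finset.range N, ν.rowLen i := by
  have h1 : ∀ c ∈ ν.cells, c.1 ∈ Finset.range N := by
    intro c hc
    rw [Finset.mem_range]
    by_contra h
    have h2 := rowLen_eq_zero ν c.1 (by omega)
    rw [YoungDiagram.mem_cells] at hc
    have h3 : (c.1, c.2) ∈ ν := hc
    rw [YoungDiagram.mem_iff_lt_rowLen] at h3
    omega
  have h2 := Finset.card_eq_sum_card_fiberwise h1
  change ν.cells.card = _
  rw [h2]
  refine Finset.sum_congr rfl (fun i _ => ?_)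
  rw [YoungDiagram.rowLen_eq_card]
  rfl

/-- **Strip lemma**: if the first `c` rows of `ν` have at least `s` cells, then a strip of `s`
cells with at most `c` cells in each column can be removed from `ν`, as low as possible. -/
theorem exists_strip (ν : YoungDiagram) (c s : ℕ) (hs : 0 < s)
    (h0 : s ≤ ∑ i ∈ Finset.range c, ν.rowLen i) :
    ∃ (ν2 : YoungDiagram) (q : ℕ), ν2 ≤ ν ∧ (∀ d, ν.colLen d ≤ ν2.colLen d + c) ∧
      ν2.card + s = ν.card ∧ s ≤ ∑ i ∈ Finset.range c, ν.rowLen (q + i) ∧
      (∀ l ≤ q, ∑ i ∈ Finset.range l, ν2.rowLen i = ∑ i ∈ Finset.range l, ν.rowLen i) ∧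
      ∀ l, q < l → ∑ i ∈ Finset.range l, ν2.rowLen i + s =
        ∑ i ∈ Finset.range (l + c), ν.rowLen i := by
  classical
  set R : ℕ → ℕ := fun q => ∑ i ∈ Finset.range c, ν.rowLen (q + i) with hR
  have hex : ∃ i, R i < s := by
    refine ⟨ν.card, ?_⟩
    have : R ν.card = 0 := by
      rw [hR]
      exact Finset.sum_eq_zero fun i _ => rowLen_eq_zero ν _ (by omega)
    omega
  obtain ⟨t, ht, htmin⟩ : ∃ t, R t < s ∧ ∀ i < t, s ≤ R i :=
    ⟨Nat.find hex, Nat.find_spec hex, fun i hi => not_lt.1 (Nat.find_min hex hi)⟩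
  have hr0 : s ≤ R 0 := by
    simpa [hR] using h0
  obtain ⟨q, rfl⟩ : ∃ q, t = q + 1 := by
    cases t with
    | zero => omega
    | succ q => exact ⟨q, rfl⟩
  have hq : s ≤ R q := htmin q (by omega)
  have hanti : ∀ i i', i ≤ i' → ν.rowLen i' ≤ ν.rowLen i := fun i i' h => ν.rowLen_anti _ _ h
  -- `R q + ν (q + c) = ν q + R (q + 1)`
  have hRR : R q + ν.rowLen (q + c) = ν.rowLen q + R (q + 1) := by
    have h1 := Finset.sum_range_succ (fun i => ν.rowLen (q + i)) c
    have h2 := Finset.sum_range_succ' (fun i => ν.rowLen (q + i)) c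
    have h3 : R (q + 1) = ∑ i ∈ Finset.range c, ν.rowLen (q + (i + 1)) := by
      rw [hR]
      refine Finset.sum_congr rfl fun i _ => ?_
      congr 1
      omega
    simp only [Nat.add_zero] at h2
    rw [h3]
    change (∑ i ∈ Finset.range c, ν.rowLen (q + i)) + _ = _
    omega
  let f : ℕ → ℕ := fun i =>
    if i < q then ν.rowLen i else if i = q then ν.rowLen (q + c) + R q - s
    else ν.rowLen (i + c)
  have f_lt : ∀ i, i < q → f i = ν.rowLen i := fun i hi => if_pos hi
  have f_eq : f q = ν.rowLen (q + c) + R q - s := by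
    simp only [f, lt_irrefl, if_false, if_true]
  have f_gt : ∀ i, q < i → f i = ν.rowLen (i + c) := by
    intro i hi
    simp only [f]
    rw [if_neg (by omega), if_neg (by omega)]
  have hf_le : ∀ i, f i ≤ ν.rowLen i := by
    intro i
    rcases lt_trichotomy i q with h | h | h
    · rw [f_lt i h]
    · subst h
      rw [f_eq]
      omega
    · rw [f_gt i h]
      exact hanti _ _ (by omega)
  have hf_ge : ∀ i, ν.rowLen (i + c) ≤ f i := by
    intro i
    rcases lt_trichotomy i q with h | h | h
    · rw [f_lt i h]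
      exact hanti _ _ (by omega)
    · subst h
      rw [f_eq]
      omega
    · rw [f_gt i h]
  have hc0 : 0 < c := by
    by_contra hc
    have : c = 0 := by omega
    subst this
    simp at h0
    omega
  have hf : Antitone f := by
    refine antitone_nat_of_succ_le fun i => ?_
    rcases lt_trichotomy i q with h | h | h
    · rw [f_lt i h]
      exact (hf_le (i + 1)).trans (hanti _ _ (by omega))
    · subst h
      rw [f_gt (i + 1) (by omega)]
      exact (hanti (i + c) (i + 1 + c) (by omega)).trans (hf_ge i)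
    · rw [f_gt i h, f_gt (i + 1) (by omega)]
      exact hanti _ _ (by omega)
  set N := ν.card + q + 1 with hNdef
  have hN : ∀ i, N ≤ i → f i = 0 := by
    intro i hi
    have := hf_le i
    rw [rowLen_eq_zero ν i (by omega)] at this
    omega
  have hrow : ∀ i, (ofFun f hf N).rowLen i = f i := rowLen_ofFun hN
  have hle : ofFun f hf N ≤ ν := by
    intro d hd
    have hd' : d ∈ ofFun f hf N := hd
    rw [mem_ofFun hN] at hd'
    have h1 : (d.1, d.2) ∈ ν := YoungDiagram.mem_iff_lt_rowLen.2 (hd'.trans_le (hf_le d.1))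
    exact h1
  have hsum_lt : ∀ l, l ≤ q → ∑ i ∈ Finset.range l, f i = ∑ i ∈ Finset.range l, ν.rowLen i := by
    intro l hl
    refine Finset.sum_congr rfl (fun i hi => f_lt i ?_)
    rw [Finset.mem_range] at hi
    omega
  have hsplit : ∑ i ∈ Finset.range (q + c), ν.rowLen i =
      ∑ i ∈ Finset.range q, ν.rowLen i + R q := Finset.sum_range_add _ _ _
  have hsum_gt : ∀ d, ∑ i ∈ Finset.range (q + 1 + d), f i + s =
      ∑ i ∈ Finset.range (q + 1 + d + c), ν.rowLen i := by
    intro d
    induction d with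
    | zero =>
      have h1 : q + 1 + 0 + c = q + c + 1 := by omega
      rw [h1, Nat.add_zero, Finset.sum_range_succ, Finset.sum_range_succ _ (q + c), hsplit,
        hsum_lt q le_rfl, f_eq]
      omega
    | succ d ih =>
      have h1 : q + 1 + (d + 1) + c = q + 1 + d + c + 1 := by omega
      rw [h1, ← Nat.add_assoc, Finset.sum_range_succ, Finset.sum_range_succ _ (q + 1 + d + c),
        ← ih, f_gt (q + 1 + d) (by omega)]
      omega
  refine ⟨ofFun f hf N, q, hle, ?_, ?_, hq, ?_, ?_⟩
  · intro d
    by_contra h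
    push Not at h
    have h1 : ((ofFun f hf N).colLen d + c, d) ∈ ν := YoungDiagram.mem_iff_lt_colLen.2 h
    rw [YoungDiagram.mem_iff_lt_rowLen] at h1
    have h2 : ((ofFun f hf N).colLen d, d) ∈ ofFun f hf N := by
      rw [mem_ofFun hN]
      exact h1.trans_le (hf_ge _)
    rw [YoungDiagram.mem_iff_lt_colLen] at h2
    simp at h2
  · have h1 : (ofFun f hf N).card = ∑ i ∈ Finset.range N, (ofFun f hf N).rowLen i := by
      refine card_eq_sum _ N ?_
      have := Finset.card_le_card hle
      have h2 : (ofFun f hf N).cells.card = (ofFun f hf N).card := rfl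
      have h3 : ν.cells.card = ν.card := rfl
      omega
    rw [h1, Finset.sum_congr rfl (fun i _ => hrow i)]
    have h2 := hsum_gt ν.card
    have h3 : q + 1 + ν.card = N := by omega
    rw [h3] at h2
    rw [h2]
    exact (card_eq_sum ν (N + c) (by omega)).symm
  · intro l hl
    rw [Finset.sum_congr rfl (fun i _ => hrow i)]
    exact hsum_lt l hl
  · intro l hl
    obtain ⟨d, rfl⟩ := Nat.exists_eq_add_of_le (show q + 1 ≤ l by omega)
    rw [Finset.sum_congr rfl (fun i _ => hrow i)]
    exact hsum_gt d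

end Vale.Agent.P197.H369
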