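import Vale.Agent.P197.H369.Peel
import Vale.Agent.P197.H369.Strip

/-!
# The induction for strict partitions with a staircase tail (P197)
-/

namespace Vale.Agent.P197.H369

open Equiv Finset Vale.Agent.P197

noncomputable section

/-- `X` is identified by `(r, j)` with the cells of the diagram with rows `A`, and `i` is the
reversed column. -/
structure IsLab {X : Type} (A : ℕ → ℕ) (r i j : X → ℕ) : Prop where
  eq : ∀ x, i x + j x + 1 = A (r x)
  inj : ∀ x y, r x = r y → j x = j y → x = y
  surj : ∀ a b, b < A a → ∃ x, r x = a ∧ j x = b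

section Base

variable {X : Type} [Fintype X] [DecidableEq X]

theorem occ_translate (rl cl : X → ℕ) (b : BF X) (v w : WM X) (k : Perm X) :
    occ rl cl (Fn b (wordRep X k v) (wordRep X k w)) =
      occ (rl ∘ k) (cl ∘ k) (Fn (b.compl₁₂ (wordRep X k) (wordRep X k)) v w) := by
  unfold occ
  have conj_mem : ∀ (f : X → ℕ) (ρ : Perm X), ρ ∈ stab f → k⁻¹ * ρ * k ∈ stab (f ∘ k) := by
    intro f ρ hρ
    rw [mem_stab] at hρ ⊢
    intro x
    simp only [Function.comp_apply, Perm.mul_apply, app_inv]
    exact hρ (k x)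
  have conj_mem' : ∀ (f : X → ℕ) (ρ : Perm X), ρ ∈ stab (f ∘ k) → k * ρ * k⁻¹ ∈ stab f := by
    intro f ρ hρ
    rw [mem_stab] at hρ ⊢
    intro x
    have := hρ (k⁻¹ x)
    simp only [Function.comp_apply, app_inv] at this
    simpa only [Perm.mul_apply] using this
  refine Finset.sum_bij' (fun ρ _ => k⁻¹ * ρ * k) (fun ρ _ => k * ρ * k⁻¹)
    (fun ρ hρ => conj_mem rl ρ hρ) (fun ρ hρ => conj_mem' rl ρ hρ) (fun ρ _ => by group)
    (fun ρ _ => by group) (fun ρ _ => ?_)
  refine Finset.sum_bij' (fun π _ => k⁻¹ * π * k) (fun π _ => k * π * k⁻¹)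
    (fun π hπ => conj_mem cl π hπ) (fun π hπ => conj_mem' cl π hπ) (fun π _ => by group)
    (fun π _ => by group) (fun π _ => ?_)
  have hs : (Perm.sign (k⁻¹ * π * k) : ℤˣ) = Perm.sign π := by
    rw [Perm.sign_mul, Perm.sign_mul, Perm.sign_inv, mul_comm (Perm.sign k), mul_assoc,
      Int.units_mul_self, mul_one]
  rw [hs]
  congr 1
  unfold Fn
  rw [LinearMap.compl₁₂_apply]
  have h1 : ∀ u : WM X, wordRep X k (wordRep X (k⁻¹ * ρ * k * (k⁻¹ * π * k)) u) =
      wordRep X (ρ * π) (wordRep X k u) := by
    intro u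
    rw [← Module.End.mul_apply, ← map_mul, ← Module.End.mul_apply, ← map_mul]
    congr 2
    group
  rw [h1, h1]

/-- Base: staircases. -/
theorem occ_staircase {m : ℕ} {i j : X → ℕ} (hs : IsStair m i j) (ν : YoungDiagram)
    (hν : ν.card = m * (m + 1) / 2) : Occ j i (r0 m i j) ν := by
  obtain ⟨b, Q, hg, rl, cl, hl, hF⟩ := T_all m X i j hs ν hν
  obtain ⟨k, hk⟩ := exists_gen_of_occ hg rl cl hF
  refine ⟨b.compl₁₂ (wordRep X k) (wordRep X k), rl ∘ k, cl ∘ k, Conj.label_comp hl k, ?_⟩
  rw [← occ_translate]
  exact hk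

omit [DecidableEq X] in
theorem card_of_stair {m : ℕ} {i j : X → ℕ} (hs : IsStair m i j) :
    Fintype.card X = m * (m + 1) / 2 := by
  have hb : Function.Bijective (fun x : X => (⟨(i x, j x), by
      rw [YoungDiagram.mem_cells, mem_staircase]; exact hs.lt x⟩ : (staircase m).cells)) := by
    constructor
    · intro x y hxy
      have h1 : i x = i y ∧ j x = j y := by simpa using hxy
      exact hs.inj x y h1.1 h1.2
    · rintro ⟨⟨a, b⟩, hab⟩
      rw [YoungDiagram.mem_cells, mem_staircase] at hab
      obtain ⟨x, hx1, hx2⟩ := hs.surj a b hab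
      refine ⟨x, ?_⟩
      simp only [Subtype.mk.injEq, Prod.mk.injEq]
      exact ⟨hx1, hx2⟩
  rw [Fintype.card_of_bijective hb, Fintype.card_coe]
  exact card_staircase m

end Base

/-- The labels of a diagram with rows `m, m - 1, ...` are staircase labels. -/
theorem IsLab.stair {X : Type} {A : ℕ → ℕ} {r i j : X → ℕ} (h : IsLab A r i j) {m : ℕ}
    (hA : ∀ a, A a = m - a) : IsStair m i j ∧ r = r0 m i j := by
  have hr : ∀ x, r x = m - 1 - i x - j x := by
    intro x
    have := h.eq x
    rw [hA] at this
    omega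
  refine ⟨⟨?_, ?_, ?_⟩, funext hr⟩
  · intro x
    have := h.eq x
    rw [hA] at this
    omega
  · intro x y h1 h2
    refine h.inj x y ?_ h2
    rw [hr, hr, h1, h2]
  · intro a b hab
    obtain ⟨x, hx1, hx2⟩ := h.surj (m - 1 - a - b) b (by rw [hA]; omega)
    refine ⟨x, ?_, hx2⟩
    have := h.eq x
    rw [hA, hx1, hx2] at this
    omega

theorem IsLab.card_row {X : Type} [Fintype X] {A : ℕ → ℕ} {r i j : X → ℕ} (h : IsLab A r i j)
    (a : ℕ) : (Finset.univ.filter fun x => r x = a).card = A a := by
  classical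
  rw [← Finset.card_range (A a)]
  refine Finset.card_bij (fun x _ => j x) ?_ ?_ ?_
  · intro x hx
    rw [Finset.mem_filter] at hx
    have := h.eq x
    rw [hx.2] at this
    rw [Finset.mem_range]
    omega
  · intro x hx y hy hxy
    rw [Finset.mem_filter] at hx hy
    exact h.inj x y (hx.2.trans hy.2.symm) hxy
  · intro b hb
    rw [Finset.mem_range] at hb
    obtain ⟨x, hx1, hx2⟩ := h.surj a b hb
    exact ⟨x, Finset.mem_filter.2 ⟨Finset.mem_univ _, hx1⟩, hx2⟩

theorem IsLab.card_lt {X : Type} [Fintype X] {A : ℕ → ℕ} {r i j : X → ℕ} (h : IsLab A r i j)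
    (s : ℕ) : (Finset.univ.filter fun x => r x < s).card = ∑ a ∈ Finset.range s, A a := by
  classical
  rw [Finset.card_eq_sum_card_fiberwise (f := r) (t := Finset.range s)]
  · refine Finset.sum_congr rfl (fun a ha => ?_)
    rw [← h.card_row a]
    congr 1
    ext x
    rw [Finset.mem_range] at ha
    simp only [Finset.mem_filter, Finset.mem_univ, true_and]
    omega
  · intro x hx
    have := (Finset.mem_filter.1 (Finset.mem_coe.1 hx)).2
    exact Finset.mem_coe.2 (Finset.mem_range.2 this)

theorem IsLab.card_compl {X : Type} [Fintype X] {A : ℕ → ℕ} {r i j : X → ℕ}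
    (h : IsLab A r i j) (s : ℕ) :
    Fintype.card {x // ¬ r x < s} + ∑ a ∈ Finset.range s, A a = Fintype.card X := by
  have h1 := Fintype.card_subtype_compl (fun x => r x < s)
  have h2 : Fintype.card {x // r x < s} = ∑ a ∈ Finset.range s, A a :=
    (Fintype.card_subtype _).trans (h.card_lt s)
  have h3 := Fintype.card_subtype_le (fun x => r x < s)
  omega

/-- Restriction of the labels to the rows from `s` on. -/
theorem IsLab.rest {X : Type} {A : ℕ → ℕ} {r i j : X → ℕ} (h : IsLab A r i j) (s : ℕ)
    (p : X → Prop) (hp : ∀ x, p x ↔ r x < s) :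
    IsLab (fun a => A (a + s)) (fun x : {x // ¬ p x} => r x.1 - s)
      (resW (fun x => ¬ p x) i) (resW (fun x => ¬ p x) j) := by
  refine ⟨?_, ?_, ?_⟩
  · rintro ⟨x, hx⟩
    rw [hp] at hx
    simp only [resW]
    rw [h.eq x, Nat.sub_add_cancel (not_lt.1 hx)]
  · rintro ⟨x, hx⟩ ⟨y, hy⟩ h1 h2
    rw [hp] at hx hy
    exact Subtype.ext (h.inj x y (by simp only at h1; omega) h2)
  · intro a b hab
    obtain ⟨x, hx1, hx2⟩ := h.surj (a + s) b hab
    refine ⟨⟨x, by rw [hp]; omega⟩, ?_, hx2⟩
    simp only
    omega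

/-- Peeling the top block of rows: `s` rows, strictly longer than the others. -/
theorem occ_peel {X : Type} [Fintype X] [DecidableEq X] {A : ℕ → ℕ} {r i j : X → ℕ}
    (h : IsLab A r i j) (s T : ℕ) (hT1 : ∀ a < s, T ≤ A a) (hT2 : ∀ a, s ≤ a → A a < T)
    (ν ν2 : YoungDiagram) (hle : ν2 ≤ ν)
    (hA : SkewOcc (resW (fun x => r x < s) j) (resW (fun x => r x < s) i)
      (resW (fun x => r x < s) r) (ν.cells \ ν2.cells))
    (h2 : Occ (resW (fun x => ¬ r x < s) j) (resW (fun x => ¬ r x < s) i)
      (fun x => r x.1 - s) ν2) : Occ j i r ν := by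
  classical
  refine Occ.step s (fun x => r x < s) j i r (fun x => Iff.rfl) ?_ ν ν2 hle hA h2
  intro g π ρ hπ hρ h1 h3
  refine pres_of_stab (m := T + 1) (fun x => r x < s) ?_ g π ρ hπ hρ h1 h3
  intro x
  have := h.eq x
  constructor
  · intro hx
    have := hT1 _ hx
    omega
  · intro hx
    by_contra hc
    have := hT2 _ (not_lt.1 hc)
    omega

/-- The rows: `k` single rows, `l` pairs of consecutive rows, and a staircase. -/
structure Shape (A : ℕ → ℕ) (k l m : ℕ) : Prop where
  single : ∀ a < k, A (a + 1) < A a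
  pair : ∀ t < l, A (k + 2 * t) = A (k + 2 * t + 1) + 1 ∧ A (k + 2 * t + 2) < A (k + 2 * t + 1)
  tail : ∀ a, A (k + 2 * l + a) = m - a

theorem Shape.anti {A : ℕ → ℕ} {k l m : ℕ} (h : Shape A k l m) : Antitone A := by
  refine antitone_nat_of_succ_le fun a => ?_
  rcases Nat.lt_or_ge a k with ha | ha
  · exact (h.single a ha).le
  rcases Nat.lt_or_ge a (k + 2 * l) with ha' | ha'
  · have h1 := h.pair ((a - k) / 2) (by omega)
    rcases Nat.mod_two_eq_zero_or_one (a - k) with hm | hm
    · have e : k + 2 * ((a - k) / 2) = a := by omega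
      rw [e] at h1
      omega
    · have e : k + 2 * ((a - k) / 2) + 1 = a := by omega
      have e2 : k + 2 * ((a - k) / 2) + 2 = a + 1 := by omega
      rw [e, e2] at h1
      exact h1.2.le
  · obtain ⟨d, rfl⟩ := Nat.exists_eq_add_of_le ha'
    rw [h.tail d, Nat.add_assoc, h.tail (d + 1)]
    omega

theorem colLen_sdiff {ν ν2 : YoungDiagram} {c : ℕ} (hcol : ∀ d, ν.colLen d ≤ ν2.colLen d + c)
    {d d' : ℕ × ℕ} (hd : d ∈ ν.cells \ ν2.cells) (hd' : d' ∈ ν.cells \ ν2.cells)
    (h : d.2 = d'.2) : d.1 < d'.1 + c := by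
  rw [Finset.mem_sdiff, YoungDiagram.mem_cells, YoungDiagram.mem_cells] at hd hd'
  have h1 : (d.1, d.2) ∈ ν := hd.1
  have h2 : ¬ (d'.1, d'.2) ∈ ν2 := hd'.2
  rw [YoungDiagram.mem_iff_lt_colLen] at h1 h2
  have h3 := hcol d.2
  rw [← h] at h2
  omega

theorem card_sdiff_cells {ν ν2 : YoungDiagram} (hle : ν2 ≤ ν) {s : ℕ}
    (hcard : ν2.card + s = ν.card) : (ν.cells \ ν2.cells).card = s := by
  rw [Finset.card_sdiff_of_subset hle]
  change ν.card - ν2.card = s
  omega

/-- The induction on the number of pairs. -/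
theorem occ_pairs (m : ℕ) : ∀ (l : ℕ) (A : ℕ → ℕ), Shape A 0 l m →
    ∀ (X : Type) [Fintype X] [DecidableEq X] (r i j : X → ℕ),
    IsLab A r i j → ∀ ν : YoungDiagram, ν.card = Fintype.card X →
    (∀ t ≤ l, ∑ a ∈ Finset.range (2 * t), A a ≤ ∑ a ∈ Finset.range (4 * t), ν.rowLen a) →
    Occ j i r ν := by
  intro l
  induction l with
  | zero =>
    intro A hA X _ _ r i j h ν hν _
    obtain ⟨hs, rfl⟩ := h.stair (m := m) (fun a => by simpa using hA.tail a)
    exact occ_staircase hs ν (hν.trans (card_of_stair hs))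
  | succ l ih =>
    intro A hA X _ _ r i j h ν hν hdom
    have hanti := hA.anti
    have h01 : A 0 = A 1 + 1 ∧ A 2 < A 1 := by
      have := hA.pair 0 (by omega)
      simpa using this
    have hdom1 : A 0 + A 1 ≤ ∑ a ∈ Finset.range 4, ν.rowLen a := by
      have := hdom 1 (by omega)
      simpa [Finset.sum_range_succ] using this
    obtain ⟨ν2, q, hle, hcol, hcard2, hq, hlow, hhigh⟩ :=
      exists_strip ν 4 (A 0 + A 1) (by omega) hdom1
    have hshape : Shape (fun a => A (a + 2)) 0 l m := by
      refine ⟨fun a ha => absurd ha (by omega), fun t ht => ?_, fun a => ?_⟩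
      · have := hA.pair (t + 1) (by omega)
        have e1 : 0 + 2 * (t + 1) = 0 + 2 * t + 2 := by omega
        rw [e1] at this
        exact this
      · have := hA.tail a
        rw [← this]
        congr 1
        omega
    have hS := card_sdiff_cells hle hcard2
    have hzig : IsZig (A 0) (resW (fun x => r x < 2) i) (resW (fun x => r x < 2) j) := by
      have hr01 : ∀ x : {x // r x < 2}, r x.1 = 0 ∨ r x.1 = 1 := fun x => by
        have := x.2
        omega
      refine ⟨?_, ?_, ?_, ?_⟩
      · intro x
        have h1 := h.eq x.1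
        simp only [resW]
        rcases hr01 x with h2 | h2 <;> rw [h2] at h1 <;> omega
      · intro x
        have h1 := h.eq x.1
        simp only [resW]
        rcases hr01 x with h2 | h2 <;> rw [h2] at h1 <;> omega
      · rintro ⟨x, hx⟩ ⟨y, hy⟩ h1 h2
        simp only [resW] at h1 h2
        have h3 := h.eq x
        have h4 := h.eq y
        refine Subtype.ext (h.inj x y ?_ h2)
        have hx' : r x = 0 ∨ r x = 1 := by omega
        have hy' : r y = 0 ∨ r y = 1 := by omega
        rcases hx' with hx' | hx' <;> rcases hy' with hy' | hy' <;> rw [hx'] at h3 <;>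
          rw [hy'] at h4 <;> omega
      · intro a b hab hab'
        have hcase : a + b + 1 = A 0 ∨ a + b + 1 = A 1 := by omega
        rcases hcase with hc | hc
        · obtain ⟨x, hx1, hx2⟩ := h.surj 0 b (by omega)
          refine ⟨⟨x, by omega⟩, ?_, hx2⟩
          have h3 := h.eq x
          rw [hx1, hx2] at h3
          simp only [resW]
          omega
        · obtain ⟨x, hx1, hx2⟩ := h.surj 1 b (by omega)
          refine ⟨⟨x, by omega⟩, ?_, hx2⟩
          have h3 := h.eq x
          rw [hx1, hx2] at h3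
          simp only [resW]
          omega
    have hrr : resW (fun x => r x < 2) r =
        r0 (A 0) (resW (fun x => r x < 2) i) (resW (fun x => r x < 2) j) := by
      funext x
      have h1 := h.eq x.1
      have h2 : r x.1 = 0 ∨ r x.1 = 1 := by
        have := x.2
        omega
      simp only [resW, r0]
      rcases h2 with h2 | h2 <;> rw [h2] at h1 <;> omega
    refine occ_peel h 2 (A 1) (fun a ha => hanti (by omega))
      (fun a ha => (hanti ha).trans_lt h01.2) ν ν2 hle ?_ ?_
    · refine skewOcc_four (m := A 0) (by omega) hzig hrr _ (by rw [hS]; omega) ?_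
      intro d hd d' hd' h2 h4
      have h5 := colLen_sdiff hcol hd hd' h2
      have h6 := colLen_sdiff hcol hd' hd h2.symm
      exact Prod.ext (by omega) h2
    · refine ih (fun a => A (a + 2)) hshape _ _ _ _ (h.rest 2 _ (fun x => Iff.rfl)) ν2 ?_ ?_
      · have h1 := h.card_compl 2
        simp only [Finset.sum_range_succ, Finset.sum_range_zero, zero_add] at h1
        omega
      · intro t ht
        rcases Nat.lt_or_ge q (4 * t) with hqt | hqt
        · have h1 := hhigh (4 * t) hqt
          have h2 := hdom (t + 1) (by omega)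
          have e1 : 2 * (t + 1) = 2 + 2 * t := by omega
          have e2 : 4 * (t + 1) = 4 * t + 4 := by omega
          rw [e1, e2, Finset.sum_range_add] at h2
          simp only [Finset.sum_range_succ, Finset.sum_range_zero, zero_add] at h1 h2
          have e3 : ∑ x ∈ Finset.range (2 * t), A (2 + x) =
              ∑ a ∈ Finset.range (2 * t), A (a + 2) :=
            Finset.sum_congr rfl fun x _ => by rw [Nat.add_comm]
          omega
        · rw [hlow _ hqt]
          refine (Finset.sum_le_sum fun a _ => ?_).trans (hdom t (by omega))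
          exact hanti (by omega)

/-- **Main induction.** -/
theorem occ_all (l m : ℕ) : ∀ (k : ℕ) (A : ℕ → ℕ), Shape A k l m →
    ∀ (X : Type) [Fintype X] [DecidableEq X] (r i j : X → ℕ),
    IsLab A r i j → ∀ ν : YoungDiagram, ν.card = Fintype.card X →
    (∀ t ≤ k, ∑ a ∈ Finset.range t, A a ≤ ∑ a ∈ Finset.range t, ν.rowLen a) →
    (∀ t ≤ l, ∑ a ∈ Finset.range (k + 2 * t), A a ≤
      ∑ a ∈ Finset.range (k + 4 * t), ν.rowLen a) →
    Occ j i r ν := by
  intro k
  induction k with
  | zero =>
    intro A hA X _ _ r i j h ν hν _ hdom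
    refine occ_pairs m l A hA X r i j h ν hν (fun t ht => ?_)
    simpa using hdom t ht
  | succ k ih =>
    intro A hA X _ _ r i j h ν hν hdom hdom'
    have hanti := hA.anti
    have h01 : A 1 < A 0 := hA.single 0 (by omega)
    obtain ⟨ν2, q, hle, hcol, hcard2, hq, hlow, hhigh⟩ :=
      exists_strip ν 1 (A 0) (by omega) (by
        have := hdom 1 (by omega)
        simpa using this)
    have hshape : Shape (fun a => A (a + 1)) k l m := by
      refine ⟨fun a ha => hA.single (a + 1) (by omega), fun t ht => ?_, fun a => ?_⟩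
      · have := hA.pair t ht
        have e1 : k + 1 + 2 * t = k + 2 * t + 1 := by omega
        rw [e1] at this
        exact this
      · have := hA.tail a
        rw [← this]
        congr 1
        omega
    have hS := card_sdiff_cells hle hcard2
    have hr0 : ∀ x : {x // r x < 1}, r x.1 = 0 := fun x => by
      have := x.2
      omega
    refine occ_peel h 1 (A 0) (fun a ha => hanti (by omega))
      (fun a ha => (hanti ha).trans_lt h01) ν ν2 hle ?_ ?_
    · refine skewOcc_one _ _ _ ?_ ?_ _ ?_ ?_
      · intro x y hxy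
        exact Subtype.ext (h.inj x.1 y.1 (by rw [hr0 x, hr0 y]) hxy)
      · intro x y hxy
        simp only [resW] at hxy
        have h1 := h.eq x.1
        have h2 := h.eq y.1
        rw [hr0 x] at h1
        rw [hr0 y] at h2
        exact Subtype.ext (h.inj x.1 y.1 (by rw [hr0 x, hr0 y]) (by omega))
      · rw [hS, Fintype.card_subtype, h.card_lt 1]
        simp
      · intro d hd d' hd' h2
        have h5 := colLen_sdiff hcol hd hd' h2
        have h6 := colLen_sdiff hcol hd' hd h2.symm
        exact Prod.ext (by omega) h2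
    · refine ih (fun a => A (a + 1)) hshape _ _ _ _ (h.rest 1 _ (fun x => Iff.rfl)) ν2 ?_ ?_ ?_
      · have h1 := h.card_compl 1
        simp only [Finset.sum_range_succ, Finset.sum_range_zero, zero_add] at h1
        omega
      · intro t ht
        rcases Nat.lt_or_ge q t with hqt | hqt
        · have h1 := hhigh t hqt
          have h2 := hdom (t + 1) (by omega)
          rw [Finset.sum_range_succ'] at h2
          omega
        · rw [hlow _ hqt]
          refine (Finset.sum_le_sum fun a _ => ?_).trans (hdom t (by omega))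
          exact hanti (by omega)
      · intro t ht
        rcases Nat.lt_or_ge q (k + 4 * t) with hqt | hqt
        · have h1 := hhigh (k + 4 * t) hqt
          have h2 := hdom' t ht
          have e1 : k + 1 + 2 * t = k + 2 * t + 1 := by omega
          have e2 : k + 1 + 4 * t = k + 4 * t + 1 := by omega
          rw [e1, e2, Finset.sum_range_succ'] at h2
          omega
        · rw [hlow _ hqt]
          -- the rows of `ν` up to `q` have at least `A 0` cells
          have hq' : A 0 ≤ ν.rowLen q := by simpa using hq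
          calc ∑ a ∈ Finset.range (k + 2 * t), A (a + 1)
              ≤ ∑ a ∈ Finset.range (k + 2 * t), ν.rowLen a := by
                refine Finset.sum_le_sum fun a ha => ?_
                rw [Finset.mem_range] at ha
                exact (hanti (Nat.zero_le _)).trans (hq'.trans (ν.rowLen_anti _ _ (by omega)))
            _ ≤ ∑ a ∈ Finset.range (k + 4 * t), ν.rowLen a :=
                Finset.sum_le_sum_of_subset (Finset.range_mono (by omega))

end

end Vale.Agent.P197.H369
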