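import Vale.Agent.P197.H369.Cyc

/-!
# The common generalisation of Saxl's conjecture and of the dominance theorem (P197)
-/

namespace Vale.Agent.P197.H369

open Equiv Finset Vale.Agent.P197
open scoped TensorProduct

noncomputable section

/-- A bijection given by two coordinate functions puts the polytabloid into the Specht module. -/
theorem polyt_mem_spechtSub {n : ℕ} (lam : YoungDiagram) (r c : Fin n → ℕ)
    (hmem : ∀ x, (r x, c x) ∈ lam) (hinj : ∀ x y, r x = r y → c x = c y → x = y)
    (hsurj : ∀ a b, (a, b) ∈ lam → ∃ x, r x = a ∧ c x = b) :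
    polyt c r ∈ spechtSub n lam := by
  have hbij : Function.Bijective
      (fun x : Fin n => (⟨(r x, c x), hmem x⟩ : lam.cells)) := by
    constructor
    · intro x y hxy
      have h1 : r x = r y ∧ c x = c y := by simpa using hxy
      exact hinj x y h1.1 h1.2
    · rintro ⟨⟨a, b⟩, hab⟩
      obtain ⟨x, hx1, hx2⟩ := hsurj a b hab
      refine ⟨x, ?_⟩
      simp only [Subtype.mk.injEq, Prod.mk.injEq]
      exact ⟨hx1, hx2⟩
  exact Submodule.subset_span ⟨Equiv.ofBijective _ hbij, rfl⟩

/-- **Main theorem.** Let the rows of `λ` be: `k` strictly decreasing rows, then `l` pairs of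
consecutive rows `b + 1, b`, strictly decreasing from pair to pair, then the staircase
`m, m - 1, ...`. There is a pure tensor `v ⊗ w` of polytabloids in `S^λ ⊗ S^λ` such that the
submodule it generates contains a copy of `S^ν` for every `ν` of the same size such that
for `t ≤ k` the first `t` rows of `ν` contain at least as many cells as the first `t` rows of `λ`,
and for `t ≤ l` the first `k + 4 t` rows of `ν` contain at least as many cells as the first
`k + 2 t` rows of `λ`. -/
theorem exists_pure (lam : YoungDiagram) (k l m : ℕ) (hA : Shape lam.rowLen k l m) :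
    ∃ v w : spechtSub lam.card lam, ∀ ν : YoungDiagram, ν.card = lam.card →
      (∀ t ≤ k, ∑ i ∈ Finset.range t, lam.rowLen i ≤ ∑ i ∈ Finset.range t, ν.rowLen i) →
      (∀ t ≤ l, ∑ i ∈ Finset.range (k + 2 * t), lam.rowLen i ≤
        ∑ i ∈ Finset.range (k + 4 * t), ν.rowLen i) →
      ∃ f : Representation.IntertwiningMap (specht lam.card ν)
          ((specht lam.card lam).tprod (specht lam.card lam)),
        f ≠ 0 ∧ ∀ x, f x ∈ cyc v w := by
  classical
  have hcard : Fintype.card lam.cells = lam.card := Fintype.card_coe _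
  let t : Fin lam.card ≃ lam.cells := (Fintype.equivFinOfCardEq hcard).symm
  let r : Fin lam.card → ℕ := fun x => (t x).1.1
  let j : Fin lam.card → ℕ := fun x => (t x).1.2
  let i : Fin lam.card → ℕ := fun x => lam.rowLen (r x) - 1 - j x
  have hlt : ∀ x, j x < lam.rowLen (r x) := by
    intro x
    have h1 : ((t x).1.1, (t x).1.2) ∈ lam := (YoungDiagram.mem_cells _).1 (t x).2
    exact YoungDiagram.mem_iff_lt_rowLen.1 h1
  have hsurj : ∀ a b, (a, b) ∈ lam → ∃ x, r x = a ∧ j x = b := by
    intro a b hab
    refine ⟨t.symm ⟨(a, b), (YoungDiagram.mem_cells _).2 hab⟩, ?_, ?_⟩ <;> simp [r, j]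
  have hinj : ∀ x y, r x = r y → j x = j y → x = y := by
    intro x y h1 h2
    exact t.injective (Subtype.ext (Prod.ext h1 h2))
  have hlab : IsLab lam.rowLen r i j := by
    refine ⟨?_, hinj, ?_⟩
    · intro x
      have := hlt x
      simp only [i]
      omega
    · intro a b hab
      exact hsurj a b (YoungDiagram.mem_iff_lt_rowLen.2 hab)
  have hv : polyt j r ∈ spechtSub lam.card lam :=
    polyt_mem_spechtSub lam r j (fun x => YoungDiagram.mem_iff_lt_rowLen.2 (hlt x)) hinj hsurj
  have hw : polyt i r ∈ spechtSub lam.card lam := by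
    refine polyt_mem_spechtSub lam r i ?_ ?_ ?_
    · intro x
      rw [YoungDiagram.mem_iff_lt_rowLen]
      have := hlab.eq x
      omega
    · intro x y h1 h2
      have h3 := hlab.eq x
      have h4 := hlab.eq y
      rw [h1] at h3
      exact hinj x y h1 (by omega)
    · intro a b hab
      rw [YoungDiagram.mem_iff_lt_rowLen] at hab
      obtain ⟨x, hx1, hx2⟩ := hlab.surj a (lam.rowLen a - 1 - b) (by omega)
      refine ⟨x, hx1, ?_⟩
      have h3 := hlab.eq x
      rw [hx1, hx2] at h3
      omega
  refine ⟨⟨_, hv⟩, ⟨_, hw⟩, fun ν hν hdom hdom' => ?_⟩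
  obtain ⟨b, rl, cl, hl, hocc⟩ := occ_all l m k lam.rowLen hA _ r i j hlab ν
    (by rw [hν, Fintype.card_fin]) hdom hdom'
  exact exists_of_occ ⟨_, hv⟩ ⟨_, hw⟩ b rl cl hl hocc

/-- The number of cells in the first `t` rows. -/
def firstRows (μ : YoungDiagram) (t : ℕ) : ℕ := ∑ i ∈ Finset.range t, μ.rowLen i

/-- The rows of `lam` are `k` strictly decreasing rows, then `l` pairs of consecutive rows
`b + 1, b`, strictly decreasing from pair to pair, then the staircase `m, m - 1, ..., 1`. -/
structure RowShape (lam : YoungDiagram) (k l m : ℕ) : Prop where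
  single : ∀ i < k, lam.rowLen (i + 1) < lam.rowLen i
  pair : ∀ t < l, lam.rowLen (k + 2 * t) = lam.rowLen (k + 2 * t + 1) + 1 ∧
    lam.rowLen (k + 2 * t + 2) < lam.rowLen (k + 2 * t + 1)
  tail : ∀ i, lam.rowLen (k + 2 * l + i) = m - i

/-- For `t ≤ k` the first `t` rows of `nu` have at least as many cells as the first `t` rows of
`lam`, and for `t ≤ l` the first `k + 4 t` rows of `nu` have at least as many cells as the first
`k + 2 t` rows of `lam`. -/
def Covers (lam nu : YoungDiagram) (k l : ℕ) : Prop :=
  (∀ t ≤ k, firstRows lam t ≤ firstRows nu t) ∧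
    ∀ t ≤ l, firstRows lam (k + 2 * t) ≤ firstRows nu (k + 4 * t)

/-- The submodule of `S^λ ⊗ S^μ` generated by `v ⊗ w` contains a copy of the Specht module
`S^ν`: there is a nonzero equivariant map from `S^ν` with values in it. -/
def OccursIn {n : ℕ} {lam mu : YoungDiagram} (v : spechtSub n lam) (w : spechtSub n mu)
    (nu : YoungDiagram) : Prop :=
  ∃ f : Representation.IntertwiningMap (specht n nu) ((specht n lam).tprod (specht n mu)),
    f ≠ 0 ∧ ∀ x, f x ∈ cyc v w

theorem exists_pure' (lam : YoungDiagram) (k l m : ℕ) (h : RowShape lam k l m) :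
    ∃ v w : spechtSub lam.card lam, ∀ ν : YoungDiagram, ν.card = lam.card →
      Covers lam ν k l → OccursIn v w ν := by
  obtain ⟨v, w, hvw⟩ := exists_pure lam k l m ⟨h.single, h.pair, h.tail⟩
  exact ⟨v, w, fun ν hν hc => hvw ν hν hc.1 hc.2⟩

set_option maxSynthPendingDepth 3 in
theorem kron_pos_of_exists {n : ℕ} {lam mu nu : YoungDiagram}
    (h : ∃ f : Representation.IntertwiningMap (specht n nu)
      ((specht n lam).tprod (specht n mu)), f ≠ 0) : 0 < kron n lam mu nu :=
  finrank_intertwining_pos _ _ h

end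

end Vale.Agent.P197.H369
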