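import Vale.Agent.P197.Bdl.B1

/-!
# Peeling one level (P197)

The peeled bilinear form with an arbitrary number `s` of top rows, and the occurrence statement
for a pair of polytabloids with the same rows.
-/

namespace Vale.Agent.P197.H369

open Equiv Finset Vale.Agent.P197

noncomputable section

/-- The kernel of the peeled form: on pairs of words whose entries `< s` are exactly on `p`,
the product of `y` and of `b₂` on the rest shifted down by `s`. -/
def pker {X : Type} [Fintype X] (s : ℕ) (p : X → Prop) [DecidablePred p]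
    (y : ({x // p x} → ℕ) → ({x // p x} → ℕ) → ℂ) (b₂ : BF {x // ¬ p x}) :
    (X → ℕ) → (X → ℕ) → ℂ :=
  fun u u' => if (∀ x, p x ↔ u x < s) ∧ (∀ x, p x ↔ u' x < s) then
    y (resW p u) (resW p u') *
      b₂ (Finsupp.single (fun x => u x.1 - s) 1) (Finsupp.single (fun x => u' x.1 - s) 1)
  else 0

variable {X : Type} [Fintype X] [DecidableEq X]

omit [Fintype X] [DecidableEq X] in
theorem pres_of_word {s : ℕ} {p : X → Prop} {r : X → ℕ} (hr : ∀ x, p x ↔ r x < s) {g : Perm X}
    (h : ∀ x, p x ↔ (r ∘ ⇑(g⁻¹ : Perm X)) x < s) : Pres p g := by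
  intro x
  rw [h (g x), hr x, Function.comp_apply, inv_app]

omit [DecidableEq X] in
theorem pker_eq_zero (s : ℕ) (p : X → Prop) [DecidablePred p]
    (y : ({x // p x} → ℕ) → ({x // p x} → ℕ) → ℂ) (b₂ : BF {x // ¬ p x}) (r r' : X → ℕ)
    (hr : ∀ x, p x ↔ r x < s) (g : Perm X) (hg : ¬ Pres p g) :
    pker s p y b₂ (r ∘ ⇑(g⁻¹ : Perm X)) r' = 0 ∧
      pker s p y b₂ r' (r ∘ ⇑(g⁻¹ : Perm X)) = 0 := by
  constructor
  · unfold pker
    rw [if_neg]
    rintro ⟨h, -⟩
    exact hg (pres_of_word hr h)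
  · unfold pker
    rw [if_neg]
    rintro ⟨-, h⟩
    exact hg (pres_of_word hr h)

/-- If no `g π` preserves `p`, the translated polytabloid is in both kernels of the
peeled form. -/
theorem pker_polyt_eq_zero (s : ℕ) (p : X → Prop) [DecidablePred p]
    (y : ({x // p x} → ℕ) → ({x // p x} → ℕ) → ℂ) (b₂ : BF {x // ¬ p x}) (c r : X → ℕ)
    (hr : ∀ x, p x ↔ r x < s) (g : Perm X)
    (hg : ∀ π ∈ stab c, ¬ ∀ x, p ((g * π) x) ↔ p x) (w : WM X) :
    kform (pker s p y b₂) (wordRep X g (polyt c r)) w = 0 ∧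
      kform (pker s p y b₂) w (wordRep X g (polyt c r)) = 0 := by
  constructor
  · induction w using Finsupp.induction_linear with
    | zero => simp only [map_zero]
    | add w w' h h' => rw [map_add, h, h', add_zero]
    | single u a =>
      rw [wordRep_polyt_expand, map_sum, LinearMap.sum_apply]
      refine Finset.sum_eq_zero (fun π hπ => ?_)
      rw [map_smul, LinearMap.smul_apply, kform_single,
        (pker_eq_zero s p y b₂ r u hr (g * π) (hg π hπ)).1]
      simp
  · induction w using Finsupp.induction_linear with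
    | zero => simp only [map_zero, LinearMap.zero_apply]
    | add w w' h h' => rw [map_add, LinearMap.add_apply, h, h', add_zero]
    | single u a =>
      rw [wordRep_polyt_expand, map_sum]
      refine Finset.sum_eq_zero (fun π hπ => ?_)
      rw [map_smul, kform_single, (pker_eq_zero s p y b₂ r u hr (g * π) (hg π hπ)).2]
      simp

/-- The peeled form on block-preserving translates of polytabloids factorises. -/
theorem pker_factor (s : ℕ) (p : X → Prop) [DecidablePred p]
    (y : ({x // p x} → ℕ) → ({x // p x} → ℕ) → ℂ) (b₂ : BF {x // ¬ p x}) (c c' r : X → ℕ)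
    (hr : ∀ x, p x ↔ r x < s) (h h' : Perm X) (H : ∀ x, p (h x) ↔ p x)
    (H' : ∀ x, p (h' x) ↔ p x) :
    kform (pker s p y b₂) (wordRep X h (polyt c r)) (wordRep X h' (polyt c' r)) =
      kform y (wordRep _ (h.subtypePerm H) (polyt (resW p c) (resW p r)))
        (wordRep _ (h'.subtypePerm H') (polyt (resW p c') (resW p r))) *
      b₂ (wordRep _ (h.subtypePerm fun x => not_congr (H x))
          (polyt (resW (fun x => ¬ p x) c) (fun x => r x.1 - s)))
        (wordRep _ (h'.subtypePerm fun x => not_congr (H' x))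
          (polyt (resW (fun x => ¬ p x) c') (fun x => r x.1 - s))) := by
  classical
  rw [bilin_polyt, bilin_polyt, bilin_polyt]
  rw [sum_stab_block p c]
  swap
  · intro g hg
    refine Finset.sum_eq_zero (fun π' _ => ?_)
    have hng : ¬ Pres p (h * g) := by
      intro hh
      apply hg
      have := (Pres.inv H).mul hh
      rwa [inv_mul_cancel_left] at this
    rw [kform_single, (pker_eq_zero s p y b₂ r _ hr (h * g) hng).1]
    simp
  have key : ∀ (a : Perm {x // p x}) (b : Perm {x // ¬ p x}),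
      ∑ π' ∈ stab c', ((Perm.sign (Perm.subtypeCongr a b) : ℤ) : ℂ) *
        (((Perm.sign π' : ℤ) : ℂ) * kform (pker s p y b₂)
          (Finsupp.single (r ∘ ⇑((h * Perm.subtypeCongr a b)⁻¹ : Perm X)) (1 : ℂ))
          (Finsupp.single (r ∘ ⇑((h' * π')⁻¹ : Perm X)) (1 : ℂ))) =
      ∑ a' ∈ stab (resW p c'), ∑ b' ∈ stab (resW (fun x => ¬ p x) c'),
        ((Perm.sign (Perm.subtypeCongr a b) : ℤ) : ℂ) *
        (((Perm.sign (Perm.subtypeCongr a' b') : ℤ) : ℂ) * kform (pker s p y b₂)
          (Finsupp.single (r ∘ ⇑((h * Perm.subtypeCongr a b)⁻¹ : Perm X)) (1 : ℂ))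
          (Finsupp.single (r ∘ ⇑((h' * Perm.subtypeCongr a' b')⁻¹ : Perm X)) (1 : ℂ))) := by
    intro a b
    rw [sum_stab_block p c']
    intro g hg
    have hng : ¬ Pres p (h' * g) := by
      intro hh
      apply hg
      have := (Pres.inv H').mul hh
      rwa [inv_mul_cancel_left] at this
    rw [kform_single, (pker_eq_zero s p y b₂ r _ hr (h' * g) hng).2]
    simp
  have hword : ∀ (k : Perm X) (K : ∀ x, p (k x) ↔ p x) (a : Perm {x // p x})
      (b : Perm {x // ¬ p x}),
      (∀ x, p x ↔ (r ∘ ⇑((k * Perm.subtypeCongr a b)⁻¹ : Perm X)) x < s) ∧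
      resW p (r ∘ ⇑((k * Perm.subtypeCongr a b)⁻¹ : Perm X)) =
        resW p r ∘ ⇑((k.subtypePerm K * a)⁻¹ : Perm {x // p x}) ∧
      (fun x : {x // ¬ p x} => (r ∘ ⇑((k * Perm.subtypeCongr a b)⁻¹ : Perm X)) x.1 - s) =
        (fun x : {x // ¬ p x} => r x.1 - s) ∘
          ⇑((k.subtypePerm (fun x => not_congr (K x)) * b)⁻¹ : Perm {x // ¬ p x}) := by
    intro k K a b
    have hk : k = Perm.subtypeCongr (k.subtypePerm K)
        (k.subtypePerm fun x => not_congr (K x)) := by
      ext x
      by_cases hx : p x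
      · rw [Perm.subtypeCongr.left_apply _ _ hx]
        rfl
      · rw [Perm.subtypeCongr.right_apply _ _ hx]
        rfl
    have hkk : (k * Perm.subtypeCongr a b)⁻¹ =
        Perm.subtypeCongr (k.subtypePerm K * a)⁻¹
          (k.subtypePerm (fun x => not_congr (K x)) * b)⁻¹ := by
      rw [← subtypeCongr_inv, subtypeCongr_mul, ← hk]
    refine ⟨?_, ?_, ?_⟩
    · intro x
      rw [Function.comp_apply, ← hr, hkk, subtypeCongr_preserve p]
    · funext x
      unfold resW
      rw [Function.comp_apply, hkk, Perm.subtypeCongr.left_apply _ _ x.2]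
      rfl
    · funext x
      rw [Function.comp_apply, Function.comp_apply, hkk, Perm.subtypeCongr.right_apply _ _ x.2]
  rw [Finset.sum_congr rfl (fun a _ => Finset.sum_congr rfl (fun b _ => key a b))]
  rw [Finset.sum_mul_sum]
  refine Finset.sum_congr rfl (fun a _ => ?_)
  refine Finset.sum_congr rfl (fun b _ => ?_)
  rw [Finset.sum_mul_sum]
  refine Finset.sum_congr rfl (fun a' _ => ?_)
  refine Finset.sum_congr rfl (fun b' _ => ?_)
  obtain ⟨w1, w2, w3⟩ := hword h H a b
  obtain ⟨w1', w2', w3'⟩ := hword h' H' a' b'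
  rw [kform_single, kform_single]
  unfold pker
  rw [if_pos ⟨w1, w1'⟩, w2, w2', w3, w3', Perm.sign_subtypeCongr, Perm.sign_subtypeCongr]
  push_cast
  ring

/-- The stabiliser of an injective labelling is trivial. -/
theorem stab_of_injective {c : X → ℕ} (hc : Function.Injective c) : stab c = {1} := by
  ext π
  rw [mem_stab, Finset.mem_singleton]
  constructor
  · intro h
    ext x
    exact hc (h x)
  · rintro rfl x
    rfl

theorem polyt_of_injective {c : X → ℕ} (hc : Function.Injective c) (r : X → ℕ) :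
    polyt c r = Finsupp.single r 1 := by
  rw [polyt, stab_of_injective hc, Finset.sum_singleton, Perm.sign_one, inv_one, Perm.coe_one,
    Function.comp_id]
  simp

/-- If the only way for `g π` (`π` preserving `c`) and `g ρ` (`ρ` preserving `c'`) to preserve
`p` is that `g` preserves `p`, then the function of the peeled form is glued from the function of
the top block and the function of the rest. -/
theorem Fn_glue (s : ℕ) (p : X → Prop) [DecidablePred p]
    (y : ({x // p x} → ℕ) → ({x // p x} → ℕ) → ℂ) (b₂ : BF {x // ¬ p x})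
    (c c' r : X → ℕ) (hr : ∀ x, p x ↔ r x < s)
    (hI : ∀ g π ρ : Perm X, π ∈ stab c → ρ ∈ stab c' → (∀ x, p ((g * π) x) ↔ p x) →
      (∀ x, p ((g * ρ) x) ↔ p x) → ∀ x, p (g x) ↔ p x) :
    Fn (kform (pker s p y b₂)) (polyt c r) (polyt c' r) =
      glueFn p (Fn (kform y) (polyt (resW p c) (resW p r)) (polyt (resW p c') (resW p r)))
        (Fn b₂ (polyt (resW (fun x => ¬ p x) c) (fun x => r x.1 - s))
        (polyt (resW (fun x => ¬ p x) c') (fun x => r x.1 - s))) := by
  classical
  funext h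
  unfold glueFn
  by_cases H : ∀ x, p (h x) ↔ p x
  · rw [dif_pos H]
    unfold Fn
    rw [pker_factor s p _ b₂ c c' r hr h h H H]
  · rw [dif_neg H]
    unfold Fn
    by_cases h1 : ∀ π ∈ stab c, ¬ ∀ x, p ((h * π) x) ↔ p x
    · exact (pker_polyt_eq_zero s p _ b₂ c r hr h h1 _).1
    by_cases h2 : ∀ π ∈ stab c', ¬ ∀ x, p ((h * π) x) ↔ p x
    · exact (pker_polyt_eq_zero s p _ b₂ c' r hr h h2 _).2
    push Not at h1 h2
    obtain ⟨π, hπ, hπ'⟩ := h1
    obtain ⟨ρ, hρ, hρ'⟩ := h2
    exact absurd (hI h π ρ hπ hρ hπ' hρ') H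

/-- The occurrence statement for the pair of polytabloids with columns `c`, `c'` and common rows
`r`: some bilinear form detects the Young symmetrizer of `ν`. -/
def Occ (c c' r : X → ℕ) (ν : YoungDiagram) : Prop :=
  ∃ b : BF X, ∃ rl cl : X → ℕ, IsLabel ν.cells rl cl ∧ occ rl cl (Fn b (polyt c r) (polyt c' r)) ≠ 0

/-- The evaluation of a top block on a skew shape. -/
def SkewOcc {A : Type} [Fintype A] [DecidableEq A] (c c' r : A → ℕ) (S : Finset (ℕ × ℕ)) : Prop :=
  ∃ rl cl : A → ℕ, IsLabel S rl cl ∧ ∃ y : (A → ℕ) → (A → ℕ) → ℂ,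
    (∀ ρ ∈ stab rl, ∀ u u' : A → ℕ, y (u ∘ ρ) (u' ∘ ρ) = y u u') ∧
    ∑ π ∈ stab cl, ((Perm.sign π : ℤ) : ℂ) * Fn (kform y) (polyt c r) (polyt c' r) π ≠ 0

/-- **Peeling one block.** -/
theorem Occ.step (s : ℕ) (p : X → Prop) [DecidablePred p]
    (c c' r : X → ℕ) (hr : ∀ x, p x ↔ r x < s)
    (hI : ∀ g π ρ : Perm X, π ∈ stab c → ρ ∈ stab c' → (∀ x, p ((g * π) x) ↔ p x) →
      (∀ x, p ((g * ρ) x) ↔ p x) → ∀ x, p (g x) ↔ p x)
    (ν ν2 : YoungDiagram) (hle : ν2 ≤ ν)
    (hA : SkewOcc (resW p c) (resW p c') (resW p r) (ν.cells \ ν2.cells))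
    (h2 : Occ (resW (fun x => ¬ p x) c) (resW (fun x => ¬ p x) c') (fun x => r x.1 - s) ν2) :
    Occ c c' r ν := by
  classical
  obtain ⟨b₂, rl₂, cl₂, hlab₂, hocc₂⟩ := h2
  obtain ⟨rlA, clA, hlabA, y, hy, hyne⟩ := hA
  set S : Finset (ℕ × ℕ) := ν.cells \ ν2.cells with hSdef
  set rl : X → ℕ := fun x => if h : p x then rlA ⟨x, h⟩ else rl₂ ⟨x, h⟩ with hrl
  set cl : X → ℕ := fun x => if h : p x then clA ⟨x, h⟩ else cl₂ ⟨x, h⟩ with hcl
  have hrlA : ∀ (x : X) (h : p x), rl x = rlA ⟨x, h⟩ := fun x h => by rw [hrl]; exact dif_pos h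
  have hclA : ∀ (x : X) (h : p x), cl x = clA ⟨x, h⟩ := fun x h => by rw [hcl]; exact dif_pos h
  have hrl2 : ∀ (x : X) (h : ¬ p x), rl x = rl₂ ⟨x, h⟩ := fun x h => by
    rw [hrl]; exact dif_neg h
  have hcl2 : ∀ (x : X) (h : ¬ p x), cl x = cl₂ ⟨x, h⟩ := fun x h => by
    rw [hcl]; exact dif_neg h
  have hresA : resW p rl = rlA := by
    funext x
    exact hrlA x.1 x.2
  have hresA' : resW p cl = clA := by
    funext x
    exact hclA x.1 x.2
  have hresB : resW (fun x => ¬ p x) rl = rl₂ := by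
    funext x
    exact hrl2 x.1 x.2
  have hresB' : resW (fun x => ¬ p x) cl = cl₂ := by
    funext x
    exact hcl2 x.1 x.2
  have hin : ∀ x, p x → (rl x, cl x) ∈ S := by
    intro x hx
    rw [hrlA x hx, hclA x hx]
    exact hlabA.mem _
  have hout : ∀ x, ¬ p x → (rl x, cl x) ∈ ν2.cells := by
    intro x hx
    rw [hrl2 x hx, hcl2 x hx]
    exact hlab₂.mem _
  have hlab : IsLabel ν.cells rl cl := by
    refine ⟨?_, ?_, ?_⟩
    · intro x
      by_cases hx : p x
      · exact (Finset.mem_sdiff.mp (hin x hx)).1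
      · exact hle (hout x hx)
    · intro x x' h1 h2
      by_cases hx : p x
      · by_cases hx' : p x'
        · have := hlabA.inj ⟨x, hx⟩ ⟨x', hx'⟩ (by rw [← hrlA, ← hrlA, h1])
            (by rw [← hclA, ← hclA, h2])
          exact congrArg Subtype.val this
        · have h3 := (Finset.mem_sdiff.mp (hin x hx)).2
          have h4 := hout x' hx'
          rw [h1, h2] at h3
          exact absurd h4 h3
      · by_cases hx' : p x'
        · have h3 := (Finset.mem_sdiff.mp (hin x' hx')).2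
          have h4 := hout x hx
          rw [← h1, ← h2] at h3
          exact absurd h4 h3
        · have := hlab₂.inj ⟨x, hx⟩ ⟨x', hx'⟩ (by rw [← hrl2, ← hrl2, h1])
            (by rw [← hcl2, ← hcl2, h2])
          exact congrArg Subtype.val this
    · intro c hc
      by_cases hc2 : c ∈ ν2.cells
      · obtain ⟨x, h1, h2⟩ := hlab₂.surj c hc2
        exact ⟨x.1, by rw [hrl2 x.1 x.2, ← h1], by rw [hcl2 x.1 x.2, ← h2]⟩
      · obtain ⟨x, h1, h2⟩ := hlabA.surj c (Finset.mem_sdiff.mpr ⟨hc, hc2⟩)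
        exact ⟨x.1, by rw [hrlA x.1 x.2, ← h1], by rw [hclA x.1 x.2, ← h2]⟩
  refine ⟨kform (pker s p y b₂), rl, cl, hlab, ?_⟩
  rw [Fn_glue s p y b₂ c c' r hr hI]
  refine occ_glue p ν ν2 hle rl cl hlab ?_ _ _ ?_ ?_ ?_
  · intro x
    constructor
    · exact hout x
    · intro h hx
      exact (Finset.mem_sdiff.mp (hin x hx)).2 h
  · intro ρ hρ g
    rw [hresA] at hρ
    simp only [Fn, map_mul, Module.End.mul_apply]
    exact kform_invariant y ρ (hy ρ hρ) _ _
  · rw [hresA']
    exact hyne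
  · rw [hresB, hresB']
    exact hocc₂

/-- A single row meets every horizontal strip. -/
theorem skewOcc_one {A : Type} [Fintype A] [DecidableEq A] (c c' r : A → ℕ)
    (hc : Function.Injective c) (hc' : Function.Injective c') (S : Finset (ℕ × ℕ))
    (hcard : S.card = Fintype.card A) (hS : ∀ d ∈ S, ∀ d' ∈ S, d.2 = d'.2 → d = d') :
    SkewOcc c c' r S := by
  have eS : A ≃ S := by
    refine Fintype.equivOfCardEq ?_
    rw [Fintype.card_coe, hcard]
  refine ⟨fun x => (eS x).1.1, fun x => (eS x).1.2, ⟨fun x => (eS x).2, ?_, ?_⟩,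
    fun _ _ => 1, fun _ _ _ _ => rfl, ?_⟩
  · intro x y h1 h2
    exact eS.injective (Subtype.ext (Prod.ext h1 h2))
  · intro c hc
    exact ⟨eS.symm ⟨c, hc⟩, by simp, by simp⟩
  · have hinj : Function.Injective (fun x => (eS x).1.2) := by
      intro x y hxy
      exact eS.injective (Subtype.ext (hS _ (eS x).2 _ (eS y).2 hxy))
    rw [stab_of_injective hinj, Finset.sum_singleton, Perm.sign_one]
    unfold Fn
    rw [polyt_of_injective hc, polyt_of_injective hc', map_one]
    simp only [Module.End.one_apply, kform_single]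
    norm_num

/-- Two consecutive rows meet every skew shape with columns of height at most four. -/
theorem skewOcc_four {A : Type} [Fintype A] [DecidableEq A] {m : ℕ} (hm : 1 ≤ m)
    {i j r : A → ℕ} (hz : IsZig m i j) (hr : r = r0 m i j) (S : Finset (ℕ × ℕ))
    (hcard : S.card = 2 * m - 1)
    (hS : ∀ d ∈ S, ∀ d' ∈ S, d.2 = d'.2 → d.1 % 4 = d'.1 % 4 → d = d') :
    SkewOcc j i r S := by
  subst hr
  exact exists_kernel hm hz S hcard hS

end

end Vale.Agent.P197.H369
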